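import Vale.Agent.P354RI.Glb

/-!
Weights, congruences, and roots of functions which represent elements of a quotient.
-/

noncomputable section

namespace Vale.Agent.P354NA

open Vale.Agent.P354XG Vale.Agent.P354XG.Geo Vale.Agent.P354XR Vale.Agent.P354RI

variable {A Q : Type} [CommRing A] [Algebra ℂ A] [CommRing Q] [Algebra ℂ Q]

/-- f has the weights p and q. -/
structure W (H B : Der A) (p q : ℤ) (f : A) : Prop where
  H : H f = p * f
  B : B f = q * f

section wt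
variable {H B : Der A} {p q p' q' u v : ℤ} {f g : A}

theorem W.mul (h : W H B p q f) (k : W H B p' q' g) (e : p + p' = u) (e' : q + q' = v) :
    W H B u v (f * g) :=
  ⟨by rw [D_mul, h.H, k.H, ← e]; push_cast; ring, by rw [D_mul, h.B, k.B, ← e']; push_cast; ring⟩
theorem W.m0 (h : W H B 0 0 f) (k : W H B p q g) : W H B p q (f * g) :=
  h.mul k (zero_add _) (zero_add _)
theorem W.m1 (h : W H B p q f) (k : W H B 0 0 g) : W H B p q (f * g) :=
  h.mul k (add_zero _) (add_zero _)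
theorem W.add (h : W H B p q f) (k : W H B p q g) : W H B p q (f + g) :=
  ⟨by rw [D_add, h.H, k.H]; ring, by rw [D_add, h.B, k.B]; ring⟩
theorem W.sub (h : W H B p q f) (k : W H B p q g) : W H B p q (f - g) :=
  ⟨by rw [D_sub, h.H, k.H]; ring, by rw [D_sub, h.B, k.B]; ring⟩
theorem W.neg (h : W H B p q f) : W H B p q (-f) :=
  ⟨by rw [D_neg, h.H]; ring, by rw [D_neg, h.B]; ring⟩
theorem w0 (h : H f = 0) (k : B f = 0) : W H B 0 0 f := ⟨by simp [h], by simp [k]⟩
theorem W.H0 (h : W H B 0 q f) : H f = 0 := by simpa using h.H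
theorem W.B0 (h : W H B p 0 f) : B f = 0 := by simpa using h.B
theorem W.H1 (h : W H B 1 q f) : H f = f := by simpa using h.H
theorem W.B1 (h : W H B p 1 f) : B f = f := by simpa using h.B
theorem w_alg (z : ℂ) : W H B 0 0 (algebraMap ℂ A z) := w0 (D_alg _ _) (D_alg _ _)
theorem w_one : W H B 0 0 (1 : A) := w0 (D_one _) (D_one _)

end wt

/-- Congruence. -/
def Cg (S : Ideal Q) (p q : Q) : Prop := p - q ∈ S

section cg
variable {S : Ideal Q} {p q u v : Q}

theorem Cg.rfl' (p : Q) : Cg S p p := by rw [Cg, sub_self]; exact zero_mem _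
theorem Cg.symm (h : Cg S p q) : Cg S q p := by simpa [Cg] using neg_mem h
theorem Cg.trans (h : Cg S p q) (k : Cg S q u) : Cg S p u := by simpa [Cg] using add_mem h k
theorem Cg.to (h : Cg S p q) (e : q = u) : Cg S p u := e ▸ h
theorem rr_cg : RR (Cg S) :=
  ⟨fun h k => by rw [Cg, add_sub_add_comm]; exact add_mem h k,
    fun {a b a' b'} h k => by
      rw [Cg, show a * b - a' * b' = b * (a - a') + a' * (b - b') by ring]
      exact add_mem (S.mul_mem_left _ h) (S.mul_mem_left _ k),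
    fun z => Cg.rfl' _⟩

theorem Cg.inv (h : Cg S p q) (e : p * u = 1) (e' : q * v = 1) : Cg S u v := by
  rw [Cg, show u - v = -(u * v) * (p - q) by linear_combination v * e - u * e']
  exact S.mul_mem_left _ h

theorem inv_eq (e : p * u = 1) (e' : p * v = 1) : u = v := by
  linear_combination v * e - u * e'

theorem alg_inv {k : ℂ} (k0 : k ≠ 0) : algebraMap ℂ Q k * algebraMap ℂ Q k⁻¹ = 1 := by
  rw [← map_mul, mul_inv_cancel₀ k0, map_one]

theorem Cg.unit (i : ∀ s ∈ S, IsUnit (1 + s)) {k : ℂ} (k0 : k ≠ 0)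
    (h : Cg S p (algebraMap ℂ Q k)) : IsUnit p := by
  have e := alg_inv (Q := Q) k0
  rw [show p = algebraMap ℂ Q k * (1 + algebraMap ℂ Q k⁻¹ * (p - algebraMap ℂ Q k)) by
    linear_combination -(p - algebraMap ℂ Q k) * e]
  exact (IsUnit.of_mul_eq_one _ e).mul (i _ (S.mul_mem_left _ h))

theorem sq_eq (i : ∀ s ∈ S, IsUnit (1 + s)) {k : ℂ} (k0 : k ≠ 0) (h : Cg S p (algebraMap ℂ Q k))
    (l : Cg S q (algebraMap ℂ Q k)) (e : p * p = q * q) : p = q := by
  have u := ((rr_cg.add h l).to (map_add _ k k).symm).unit i (add_self_eq_zero.not.2 k0)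
  exact sub_eq_zero.1 (u.mul_right_eq_zero.1 (by linear_combination e))

theorem cb_eq (i : ∀ s ∈ S, IsUnit (1 + s)) {k : ℂ} (k0 : k ≠ 0) (h : Cg S p (algebraMap ℂ Q k))
    (l : Cg S q (algebraMap ℂ Q k)) (e : p ^ 3 = q ^ 3) : p = q := by
  have r := rr_cg (S := S)
  have u := ((r.add (r.add (r.mul h h) (r.mul h l)) (r.mul l l)).to (u := algebraMap ℂ Q (3 * k ^ 2))
    (by rw [map_mul, map_pow, map_ofNat]; ring)).unit i (by simpa using k0)
  exact sub_eq_zero.1 (u.mul_right_eq_zero.1 (by linear_combination e))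

theorem kr_cg {K' K : KC Q} (i' : K'.Is) (i : K.Is) (c : ∀ f, K.c f = K'.c f)
    (d : ∀ s ∈ S, K'.c s ∈ S) (h : Cls S K' K) : KR (Cg S) K' K := by
  have r := rr_cg (S := S)
  have g' := i'.hg
  have g := i.hg
  rw [mul_comm] at g g'
  refine ⟨r, h.r, h.x, h.s, ?_, h.N, Cg.inv h.N i'.hN i.hN, Cg.inv (r.add (r.mul h.r h.r)
    (r.mul (r.mul (r.mul h.a h.a) h.x) h.x)) g' g, h.a, h.M⟩
  have := d _ h.s
  rwa [map_sub, i'.c_s, ← c, i.c_s] at this

end cg

/-- The real part. -/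
def re (c : A →+* A) (f : A) : A := hf A * (f + c f)

theorem re_of {K : KC Q} (i : K.Is) {p t : Q} (hp : K.c p = p) (ht : K.c t = t) :
    re K.c (p + ii Q * t) = p := by
  simp only [re, map_add, map_mul, hp, ht, i.c_ii]
  linear_combination p * two_hf (A := Q)

theorem re_real {d : Q →+* Q} {p : Q} (hp : d p = p) : re d p = p := by
  simp only [re, hp]
  linear_combination p * two_hf (A := Q)

/-- The functions of A represent elements of Q; S is the ideal of the small elements. -/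
structure Ab (c : A →+* A) (H B : Der A) (ρ : A → Q → Prop) (d : Q →+* Q) (S : Ideal Q) :
    Prop where
  rr : RR ρ
  st : ∀ {f q}, ρ f q → ρ (c f) (d q)
  fn : ∀ {f q q'}, ρ f q → ρ f q' → q = q'
  cc : ∀ f, c (c f) = f
  ca : ∀ z, c (algebraMap ℂ A z) = algebraMap ℂ A (starRingEnd ℂ z)
  cH : ∀ f, H (c f) = c (B f)
  cB : ∀ f, B (c f) = c (H f)
  dS : ∀ s ∈ S, d s ∈ S
  inv : ∀ s ∈ S, IsUnit (1 + s)
  rt : ∀ {u q} (n : ℕ), n ≠ 0 → ρ u q → Cg S q 1 → W H B 0 0 u → ∃ w v p p', ρ w p ∧ ρ v p' ∧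
    Cg S p 1 ∧ Cg S p' 1 ∧ w ^ n = u ∧ w * v = 1 ∧ W H B 0 0 w ∧ W H B 0 0 v ∧
    (c u = u → c w = w ∧ c v = v)

namespace Ab
variable {c : A →+* A} {H B : Der A} {ρ : A → Q → Prop} {d : Q →+* Q} {S : Ideal Q}
  (h : Ab c H B ρ d S) {f g : A} {p q : Q} {m n : ℤ}
include h

theorem eq (l : ρ f p) (k : ρ g q) (e : f = g) : p = q := h.fn l (e ▸ k)

theorem real (l : ρ f p) (e : c f = f) : d p = p := h.eq (h.st l) l e

theorem cg (l : Cg S p q) : Cg S (d p) (d q) := by rw [Cg, ← map_sub]; exact h.dS _ l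

theorem cj (w : W H B m n f) : W H B n m (c f) :=
  ⟨by rw [h.cH, w.B, map_mul, map_intCast], by rw [h.cB, w.H, map_mul, map_intCast]⟩

theorem c_hf : c (hf A) = hf A := by rw [hf, h.ca, map_div₀, map_one, map_ofNat]

theorem c_re (f : A) : c (re c f) = re c f := by
  simp only [re, map_add, map_mul, h.c_hf, h.cc, add_comm]

theorem w_re (w : W H B m m f) : W H B m m (re c f) := (w_alg _).m0 (w.add (h.cj w))

theorem r_re (l : ρ f p) : ρ (re c f) (re d p) := h.rr.mul h.rr.hf (h.rr.add l (h.st l))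

theorem sqrt {k : ℝ} (k0 : k ≠ 0) (l : ρ f (q * q)) (e : Cg S q (algebraMap ℂ Q k))
    (w : W H B 0 0 f) (cf : c f = f) : ∃ w v q', w * v = 1 ∧ W H B 0 0 w ∧ W H B 0 0 v ∧
      c w = w ∧ c v = v ∧ ρ w q ∧ ρ v q' ∧ q * q' = 1 := by
  have k1 : (k : ℂ) ≠ 0 := Complex.ofReal_ne_zero.2 k0
  have r := rr_cg (S := S)
  have eQ := alg_inv (Q := Q) k1
  have eA := alg_inv (Q := A) k1
  have a := h.rr.alg (k : ℂ)
  have b := h.rr.alg (k : ℂ)⁻¹
  have ck : c (algebraMap ℂ A k) = algebraMap ℂ A k := by rw [h.ca, Complex.conj_ofReal]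
  have ci : c (algebraMap ℂ A (k : ℂ)⁻¹) = algebraMap ℂ A (k : ℂ)⁻¹ := by
    rw [h.ca, map_inv₀, Complex.conj_ofReal]
  have e1 : Cg S (algebraMap ℂ Q (k : ℂ)⁻¹ * q) 1 :=
    (r.mul (.rfl' _) e).to (by rw [mul_comm, eQ])
  have l1 := h.rr.mul b (h.rr.mul b l)
  obtain ⟨u, v, p, p', lu, lv, cp, -, uu, uv, wu, wv, cr⟩ := h.rt 2 two_ne_zero l1
    (by
      have := (r.mul e1 e1).to (one_mul 1)
      rwa [mul_mul_mul_comm, mul_assoc] at this) ((w_alg _).m0 ((w_alg _).m0 w))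
  obtain ⟨cu, cv⟩ := cr (by rw [map_mul, map_mul, ci, cf])
  have pp := h.eq (h.rr.pow lu 2) l1 uu
  have pq : algebraMap ℂ Q k * p = q := sq_eq h.inv k1 ((r.mul (.rfl' _) cp).to (mul_one _)) e
    (by linear_combination algebraMap ℂ Q k ^ 2 * pp +
      (algebraMap ℂ Q k * algebraMap ℂ Q (k : ℂ)⁻¹ + 1) * q * q * eQ)
  have uv' : algebraMap ℂ A k * u * (algebraMap ℂ A (k : ℂ)⁻¹ * v) = 1 := by
    linear_combination u * v * eA + uv
  have lw : ρ (algebraMap ℂ A k * u) q := pq ▸ h.rr.mul a lu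
  exact ⟨_, _, _, uv', (w_alg _).m0 wu, (w_alg _).m0 wv, by rw [map_mul, ck, cu],
    by rw [map_mul, ci, cv], lw, h.rr.mul b lv,
    h.eq (h.rr.mul lw (h.rr.mul b lv)) h.rr.one uv'⟩

end Ab

end Vale.Agent.P354NA
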