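import Vale.Agent.P354NA.Abs

/-!
The functions of a Kerr chart in terms of the spin coefficients and the curvature.
-/

noncomputable section

namespace Vale.Agent.P354NA

open Vale.Agent.P354XG Vale.Agent.P354XG.Geo Vale.Agent.P354XR Vale.Agent.P354RI

variable {A Q : Type} [CommRing A] [Algebra ℂ A] [CommRing Q] [Algebra ℂ Q]

section id
variable {K : KC Q} (i : K.Is)
include i

theorem tt_eq : K.ta * K.ta2 = -(K.a * K.a * K.sg * K.z * K.z * (1 - K.x * K.x)) := by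
  simp only [KC.ta, KC.ta2]
  linear_combination K.a * K.a * K.sg * K.z * K.z * K.s * K.sb * ii_sq (A := Q) -
    K.a * K.a * K.sg * K.z * K.z * i.hs

theorem rr_eq : K.rh * K.rh2 = -(K.sg * K.De * K.z * K.z) := by
  simp only [KC.rh, KC.rh2]
  linear_combination -(K.sg * K.De * K.z * K.z) * i.hN

theorem yy_eq : (K.r - ii Q * K.a * K.x) * (K.r + ii Q * K.a * K.x) =
    K.r * K.r + K.a * K.a * K.x * K.x := by
  linear_combination -(K.a * K.a * K.x * K.x) * ii_sq (A := Q)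

theorem c_y : K.c (K.r - ii Q * K.a * K.x) = K.r + ii Q * K.a * K.x := by
  simp only [map_sub, map_mul, i.c_r, i.c_a, i.c_x, i.c_ii]; ring

theorem c_hf : K.c (hf Q) = hf Q := by rw [hf, i.calg, map_div₀, map_one, map_ofNat]

end id

/-- The data. -/
structure Dt (c : A →+* A) (H B : Der A) (ρ : A → Q → Prop) (S : Ideal Q) (K' K : KC Q)
    (rh rh' ta ta' ze zi sg z2 z5 : A) (Z Zi p2 p5 : Q) (k a : ℝ) : Prop where
  ab : Ab c H B ρ K'.c S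
  i' : K'.Is
  i : K.Is
  cl : KR (Cg S) K' K
  w1 : W H B 1 1 rh
  w2 : W H B (-1) (-1) rh'
  w3 : W H B 1 (-1) ta
  w4 : W H B (-1) 1 ta'
  wze : W H B 0 0 ze
  wzi : W H B 0 0 zi
  wsg : W H B 0 0 sg
  wz2 : W H B 1 0 z2
  wz5 : W H B 0 1 z5
  l1 : ρ rh K'.rh
  l2 : ρ rh' K'.rh2
  l3 : ρ ta K'.ta
  l4 : ρ ta' K'.ta2
  lze : ρ ze Z
  lzi : ρ zi Zi
  lsg : ρ sg K.sg
  lz2 : ρ z2 p2
  lz5 : ρ z5 p5
  e : Z * Zi = 1
  e3 : Zi ^ 3 = K'.P2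
  cz : Cg S Zi (algebraMap ℂ Q k * K.z)
  k0 : k ≠ 0
  a0 : a ≠ 0
  ea : K.a = algebraMap ℂ Q a
  i1 : (1 + K.x) * p2 + K.s * p5 = 2 * p2
  i2 : K.sb * p2 + (1 - K.x) * p5 = 2 * p5
  i3 : (p2 * K'.c p2 + K'.c p5 * p5) * K.Ni = 1

namespace Dt
variable {c : A →+* A} {H B : Der A} {ρ : A → Q → Prop} {S : Ideal Q} {K' K : KC Q}
  {rh rh' ta ta' ze zi sg z2 z5 : A} {Z Zi p2 p5 : Q} {k a : ℝ}
  (h : Dt c H B ρ S K' K rh rh' ta ta' ze zi sg z2 z5 Z Zi p2 p5 k a)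
include h

theorem ex_q : ∃ κ κi : Q, κ * κi = 1 ∧ K'.c κ = κ ∧ K'.c κi = κi ∧ κ ^ 3 = -(2 * K'.M) ∧
    Z = κi * (K'.r - ii Q * K'.a * K'.x) ∧ Zi = κ * K'.z ∧
    Cg S κi (algebraMap ℂ Q ((k⁻¹ : ℝ) : ℂ)) := by
  have r := rr_cg (S := S)
  have i := h.i'
  have zy := i.z_ze
  have k1 : (k : ℂ) ≠ 0 := Complex.ofReal_ne_zero.2 h.k0
  have e := h.e
  set y := K'.r - ii Q * K'.a * K'.x
  have c1 : Cg S (Zi * y) (algebraMap ℂ Q k) :=
    (r.mul h.cz (r.sub h.cl.r (r.mul h.cl.ia h.cl.x))).to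
      (by linear_combination algebraMap ℂ Q k * h.i.z_ze)
  have c2 : Cg S (K'.c (Zi * y)) (algebraMap ℂ Q k) :=
    (h.ab.cg c1).to (by rw [i.calg, Complex.conj_ofReal])
  have e3 : (Zi * y) ^ 3 = -(2 * K'.M) := by
    rw [mul_pow, h.e3, KC.P2]
    linear_combination -(2 * K'.M) * ((K'.z * y) ^ 2 + K'.z * y + 1) * zy
  have cκ : K'.c (Zi * y) = Zi * y := cb_eq h.ab.inv k1 c2 c1 (by
    rw [← map_pow, e3, map_neg, map_mul, map_ofNat, i.c_M])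
  have u : Zi * y * (Z * K'.z) = 1 := by linear_combination K'.z * y * e + zy
  refine ⟨_, _, u, cκ, inv_eq ?_ u, e3, by linear_combination -Z * zy,
    by linear_combination -Zi * zy, ?_⟩
  · rw [← cκ, ← map_mul, u, map_one]
  · rw [Complex.ofReal_inv]
    exact c1.inv u (alg_inv k1)

theorem ex_y : ∃ Y Mh, W H B 0 0 Y ∧ ρ Y (K'.r - ii Q * K'.a * K'.x) ∧ c Mh = Mh ∧
    W H B 0 0 Mh ∧ ρ Mh K'.M := by
  obtain ⟨κ, κi, u, c1, c2, e3, eZ, eI, cg⟩ := h.ex_q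
  have b := h.ab
  have r := b.rr
  have i := h.i'
  have l := b.r_re (r.sub (r.mul (r.sub (r.mul h.l3 h.l4) (r.mul h.l1 h.l2))
    (r.mul h.lze h.lze)) h.lzi)
  rw [show (K'.ta * K'.ta2 - K'.rh * K'.rh2) * (Z * Z) - Zi =
      κi * κi + ii Q * -(κ * K'.sg * K'.a * K'.x) by
    have zy := i.z_ze
    have e1 : Z * K'.z = κi := by rw [eZ]; linear_combination κi * zy
    have e2 : K'.ta * K'.ta2 - K'.rh * K'.rh2 = K'.z * K'.z * (1 + κ ^ 3 * K'.r * K'.sg) := by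
      rw [tt_eq i, rr_eq i, e3, KC.De]
      linear_combination K'.z * K'.z * i.hg
    have ez : K'.z = K'.sg * (K'.r + ii Q * K'.a * K'.x) := rfl
    rw [e2, eI]
    linear_combination (Z * K'.z + κi) * (1 + κ ^ 3 * K'.r * K'.sg) * e1 +
      κ * K'.r * K'.sg * (κ * κi + 1) * u - κ * ez,
    re_of i (by rw [map_mul, c2]) (by simp only [map_neg, map_mul, c1, i.c_sg, i.c_a, i.c_x])] at l
  obtain ⟨w, v, q, -, -, wv, -, cv, -, lv, e⟩ := b.sqrt (inv_ne_zero h.k0) l cg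
    (b.w_re ((((h.w3.mul h.w4 rfl rfl).sub (h.w1.mul h.w2 rfl rfl)).m0 (h.wze.m0 h.wze)).sub
      h.wzi)) (b.c_re _)
  rw [mul_comm] at u
  rw [inv_eq e u] at lv
  refine ⟨v * ze, -(hf A * (v * v * v)), wv.m0 h.wze, ?_, ?_,
    ((w_alg _).m0 ((wv.m0 wv).m0 wv)).neg, ?_⟩
  · have := r.mul lv h.lze
    rwa [eZ, ← mul_assoc, mul_comm κ, u, one_mul] at this
  · simp only [map_neg, map_mul, b.c_hf, cv]
  · have := r.neg (r.mul r.hf (r.mul (r.mul lv lv) lv))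
    rwa [show -(hf Q * (κ * κ * κ)) = K'.M by
      linear_combination -hf Q * e3 + K'.M * two_hf (A := Q)] at this

theorem ex_fn : ∃ r ah Mh x s Ni, c r = r ∧ c ah = ah ∧ c Mh = Mh ∧ c Ni = Ni ∧ W H B 0 0 r ∧
    W H B 0 0 ah ∧ W H B 0 0 Mh ∧ W H B 0 0 x ∧ W H B 1 (-1) s ∧ W H B (-1) (-1) Ni ∧ ρ r K'.r ∧
    ρ ah K'.a ∧ ρ Mh K'.M ∧ ρ x K'.x ∧ ρ s K'.s ∧ ρ Ni K'.Ni := by
  obtain ⟨Y, Mh, wY, lY, cM, wM, lM⟩ := h.ex_y
  have b := h.ab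
  have r := b.rr
  have i := h.i'
  have zy := i.z_ze
  have g := i.hg
  have i2 := ii_sq (A := Q)
  have yy := yy_eq i
  have lB := b.st lY
  rw [c_y i] at lB
  have wB := b.cj wY
  have lr := b.r_re lY
  rw [show K'.r - ii Q * K'.a * K'.x = K'.r + ii Q * -(K'.a * K'.x) by ring,
    re_of i i.c_r (by simp only [map_neg, map_mul, i.c_a, i.c_x])] at lr
  have wr := b.w_re wY
  have la := b.r_re (r.sub (r.sub (r.mul lY lB) (r.mul lr lr))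
    (r.mul (r.mul h.l3 h.l4) (r.mul (r.mul (r.mul lY lY) lY) lB)))
  set y := K'.r - ii Q * K'.a * K'.x with hy
  set yb := K'.r + ii Q * K'.a * K'.x
  rw [show y * yb - K'.r * K'.r - K'.ta * K'.ta2 * (y * y * y * yb) = K'.a * K'.a by
      rw [tt_eq i]
      linear_combination (1 + K'.a * K'.a * (1 - K'.x * K'.x) * K'.sg * (K'.z * y) ^ 2) * yy +
        K'.a * K'.a * (1 - K'.x * K'.x) * ((K'.z * y) ^ 2 * g + (K'.z * y + 1) * zy),
    re_real (d := K'.c) (by rw [map_mul, i.c_a])] at la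
  obtain ⟨w, v, q, -, ww, wv, cw, -, lw, lv, e⟩ := b.sqrt h.a0 la (h.cl.a.to h.ea)
    (b.w_re (((wY.m0 wB).sub (wr.m0 wr)).sub ((h.w3.mul h.w4 rfl rfl).m0
      (((wY.m0 wY).m0 wY).m0 wB)))) (b.c_re _)
  have lN := b.r_re (r.mul h.l2 lY)
  rw [show K'.rh2 * y = K'.Ni by rw [KC.rh2]; linear_combination K'.Ni * zy,
    re_real i.c_Ni] at lN
  refine ⟨_, w, Mh, ii A * (Y - re c Y) * v, ii A * (Y * c Y * v) * ta, _, b.c_re _, cw, cM,
    b.c_re _, wr, ww, wM, ((w_alg _).m0 (wY.sub wr)).m0 wv,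
    ((w_alg _).m0 ((wY.m0 wB).m0 wv)).m0 h.w3, b.w_re (h.w2.m1 wY), lr, lw, lM, ?_, ?_, lN⟩
  · have := r.mul (r.mul r.ii (r.sub lY lr)) lv
    rwa [show ii Q * (y - K'.r) * q = K'.x by
      rw [hy]; linear_combination -(K'.a * K'.x * q) * i2 + K'.x * e] at this
  · have := r.mul (r.mul r.ii (r.mul (r.mul lY lB) lv)) h.l3
    rwa [show ii Q * (y * yb * q) * K'.ta = K'.s by
      rw [yy, KC.ta]
      linear_combination -((K'.r * K'.r + K'.a * K'.a * K'.x * K'.x) * q * K'.a * K'.sg * K'.s) *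
        i2 + K'.a * q * K'.s * g + K'.s * e] at this

end Dt

end Vale.Agent.P354NA
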