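import Vale.Agent.P354MG.Phi
import Vale.Agent.P354YQ.Og1
import Vale.Agent.P354YO.OutA1

/-!
The dependence of the straight chart on the parameters.
-/

set_option maxSynthPendingDepth 3

open scoped ContDiff
open Set Filter Topology

noncomputable section

namespace Vale.Agent.P354NA

open Vale.Agent.P354n (R4)
open Vale.Agent.P354XE (Tw gin rd eT Bd pb)
open Vale.Agent.P354Z (hs js)
open Vale.Agent.P354YI Vale.Agent.P354YO Vale.Agent.P354MG
open Vale.Agent.P354YT (prim_d prim_cd)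

variable {M a M' a' R : ℝ} {A B A' B' : ℝ → ℝ}

theorem th_cd (h0 : 0 < M) (h : IsTh M M' a' A B) : ContDiff ℝ ∞ A ∧ ContDiff ℝ ∞ B :=
  ⟨contDiff_infty_iff_deriv.2 ⟨fun r => (h r).1.differentiableAt, by
    rw [funext fun r => (h r).1.deriv]
    exact ((P354CV.hs_cd h0).comp (by fun_prop)).sub contDiff_const⟩,
  contDiff_infty_iff_deriv.2 ⟨fun r => (h r).2.differentiableAt, by
    rw [funext fun r => (h r).2.deriv]
    exact contDiff_const.mul ((P354CV.js_cd h0).comp (by fun_prop))⟩⟩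

theorem prim_lin {H : ℝ × ℝ × ℝ → ℝ} (hH : ContDiff ℝ ∞ H) (M a : ℝ) {r0 ρ : ℝ} (hR : R ∈ Icc r0 ρ)
    (N : ℕ) : ∀ᶠ C in atTop, ∀ M' a' (F : ℝ → ℝ), |M' - M| + |a' - a| ≤ 1 → F R = 0 →
      (∀ r, HasDerivAt F (H (M', a', r) - H (M, a, r)) r) →
      ∀ r ∈ Icc r0 ρ, Jb N F r (C * (|M' - M| + |a' - a|)) := by
  obtain ⟨C, hC⟩ := (P354YQ.prim_sm hH M a r0 ρ N).exists
  refine (eventually_ge_atTop (C + C)).mono fun E k M' a' F h f0 d r hr => ?_
  have s : ∀ M a : ℝ, ContDiff ℝ ∞ fun x : ℝ => (M, a, x) := fun _ _ => by fun_prop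
  have c : ContDiff ℝ ∞ fun x => H (M, a, x) - H (M', a', x) :=
    (hH.comp (s _ _)).sub (hH.comp (s _ _))
  have l := hC M' a' h
  have p := prim_d c.continuous r0
  have q := prim_cd c r0
  generalize (fun r => ∫ x in r0..r, (H (M, a, x) - H (M', a', x))) = G at l p q
  have z : ∀ r, HasDerivAt (fun x => F x + G x) 0 r := fun r =>
    ((d r).add (p r)).congr_deriv (by ring)
  have e : ∀ x, F x = (-ContinuousLinearMap.id ℝ ℝ) (G x) + G R := fun x => by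
    have := is_const_of_deriv_eq_zero (fun r => (z r).differentiableAt) (fun r => (z r).deriv) x R
    simp only [f0] at this
    simp
    linarith
  have j := ((l r hr).clm (-ContinuousLinearMap.id ℝ ℝ) q.contDiffAt).add (jb_const N (G R) r)
    ((-ContinuousLinearMap.id ℝ ℝ).contDiff.comp q).contDiffAt contDiffAt_const
  refine (j.congr (.of_forall e)).mono le_rfl ?_
  have := mul_le_mul_of_nonneg_right k (show 0 ≤ |M' - M| + |a' - a| by positivity)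
  rw [norm_neg, ContinuousLinearMap.norm_id]
  linarith [(l R hR).zero]

/-- The linear bound. -/
theorem lin_th (h0 : 0 < M) (t : IsTh M M a A B) {r0 ρ : ℝ} (hR : R ∈ Icc r0 ρ) (N : ℕ) :
    ∃ C, 0 ≤ C ∧ ∀ M' a' A' B' ν, Nth M R M' a' A B A' B' → |M' - M| + |a' - a| ≤ ν → ν ≤ 1 →
      ∀ r ∈ Icc r0 ρ, Jb N (A' - A) r (C * ν) ∧ Jb N (B' - B) r (C * ν) := by
  have h1 := P354CV.hs_cd h0
  have h2 := (contDiff_const (c := (2 : ℝ))).mul (P354CV.js_cd h0)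
  obtain ⟨C, ⟨k1, k2⟩, c0⟩ := (((prim_lin h1 M a hR N).and (prim_lin h2 M a hR N)).and
    (eventually_ge_atTop 0)).exists
  refine ⟨C, c0, fun M' a' A' B' ν h l1 l2 r hr => ?_⟩
  have e := mul_le_mul_of_nonneg_left l1 c0
  have d1 : ∀ r, HasDerivAt (A' - A) (hs M (M', a', r) - hs M (M, a, r)) r := fun r =>
    ((h.th r).1.sub (t r).1).congr_deriv (by ring)
  have d2 : ∀ r, HasDerivAt (B' - B) (2 * js M (M', a', r) - 2 * js M (M, a, r)) r := fun r =>
    (h.th r).2.sub (t r).2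
  exact ⟨(k1 M' a' (A' - A) (l1.trans l2) (sub_eq_zero.2 h.A) d1 r hr).mono le_rfl e,
    (k2 M' a' (B' - B) (l1.trans l2) (sub_eq_zero.2 h.B) d2 r hr).mono le_rfl e⟩

theorem jb_cut (m : ℕ) : ∃ c, ∀ t, Jb m Real.smoothTransition t c := by
  obtain ⟨c, c0, hc⟩ := ex_jb m (isCompact_Icc (a := (0 : ℝ)) (b := 1))
    fun _ _ => (Real.smoothTransition.contDiff (n := ⊤)).contDiffAt
  refine ⟨c + 1, fun t => ?_⟩
  by_cases k : t ∈ Icc (0 : ℝ) 1
  · exact (hc t k).mono le_rfl (by linarith)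
  rcases not_and_or.1 k with k | k
  · exact ((jb_const m (0 : ℝ) t).congr ((eventually_lt_nhds (not_le.1 k)).mono
      fun _ j => Real.smoothTransition.zero_of_nonpos j.le)).mono le_rfl (by simp; linarith)
  · exact ((jb_const m (1 : ℝ) t).congr ((eventually_gt_nhds (not_le.1 k)).mono
      fun _ j => Real.smoothTransition.one_of_one_le j.le)).mono le_rfl (by simp; linarith)

theorem pr_t (y : R4) : pr0 y + y.1 • eT = y := by simp [pr0, eT]

theorem sh_pr (A B : ℝ → ℝ) (y : R4) : sh A B y = sh A B (pr0 y) + y.1 • eT := by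
  rw [← sh_st, pr_t]

theorem dsh_pr (A B : ℝ → ℝ) (y : R4) : fderiv ℝ (sh A B) y = fderiv ℝ (sh A B) (pr0 y) := by
  conv_lhs => rw [← pr_t y]
  rw [← fderiv_comp_add_right, funext (sh_st A B · y.1), fderiv_add_const]

theorem ball_rd {q y : R4} {ν r1 ρ : ℝ} (h : ‖y - q‖ ≤ ν) (h1 : ν ≤ 1) (h2 : 4 * ν ≤ r1)
    (h3 : r1 ≤ rd q ∧ rd q ≤ ρ) : r1 / 2 ≤ rd y ∧ rd y ≤ ρ + 2 := by
  have := abs_le.1 (rd_lip y q)
  constructor <;> linarith [this.1, this.2, h3.1, h3.2]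

section family
variable {J : Type} {x : J → R4} {μ : J → ℝ} {m : ℕ} {r1 ρ : ℝ} {ψ : J → R4 → R4}

theorem oj_cut (t : J → ℝ) : Oj m x (fun j y => Real.smoothTransition (y.1 - t j)) 1 :=
  let ⟨_, hc⟩ := jb_cut m
  Oj.comp (f := fun j y => y.1 - t j) (fun _ => contDiffAt_fst.sub contDiffAt_const) m
    ((Oj.cst (ContinuousLinearMap.fst ℝ ℝ (ℝ × ℝ × ℝ))).congr' fun _ _ => by
      rw [fderiv_sub_const, fderiv_fst])
    (.of1 (fun _ => (Real.smoothTransition.contDiff (n := ⊤)).contDiffAt) fun _ => hc _)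

theorem oj_dsh (h1 : 0 < r1) (hx : ∀ j, r1 ≤ rd (x j) ∧ rd (x j) ≤ ρ)
    (s : ∀ y, 0 < rd y → ContDiffAt ℝ ∞ (sh A B) y) : Oj m x (fun _ => fderiv ℝ (sh A B)) 1 :=
  (oj_st h1 hx fun y hy => at_fd (s y hy)).congr' fun _ => dsh_pr A B

/-- A stationary function is Lipschitz. -/
theorem oj_lst {V : Type} [NormedAddCommGroup V] [NormedSpace ℝ V] {F : R4 → V} (h1 : 0 < r1)
    (hx : ∀ j, r1 ≤ rd (x j) ∧ rd (x j) ≤ ρ) (hF : ∀ y, 0 < rd y → ContDiffAt ℝ ∞ F y)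
    (o : Oj (m + 1) x (fun j y => ψ j y - y) μ) (l : ∀ j, ‖ψ j (x j) - x j‖ ≤ μ j)
    (l1 : ∀ j, μ j ≤ 1) (l2 : ∀ j, 4 * μ j ≤ r1) :
    Oj (m + 1) x (fun j y => F (pr0 (ψ j y)) - F (pr0 y)) μ := by
  have := Oj.lip (f' := fun _ y => y) (oj_fd o).1 (fun _ => contDiffAt_id)
    (S := fun _ => {y | r1 / 2 ≤ rd y ∧ rd y ≤ ρ + 2}) (ν := 1) (fun j y hy => ball_rd
      (mem_closedBall_iff_norm.1 ((convex_closedBall _ _).segment_subset
        (mem_closedBall_iff_norm.2 (l j)) (Metric.mem_closedBall_self (o.nn j)) hy))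
      (l1 j) (l2 j) (hx j)) (m + 1) (G := fun _ y => F (pr0 y)) (oj_fd1 o l1)
    ((Oj.cst (ContinuousLinearMap.id ℝ R4)).congr' fun _ _ => fderiv_fun_id)
    o (oj_st (half_pos h1) (fun j => j.2) hF)
  rwa [one_mul] at this

end family

end Vale.Agent.P354NA
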