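import Vale.Agent.P354NA.Sp

/-!
The natural functions exist.
-/

noncomputable section

namespace Vale.Agent.P354NA

open Vale.Agent.P354XG hiding Dom Dom0 Bd bdSub domI Keeps Low dom0_mk dom0_zero dom0_cst dom_of
  dom_zero dom_cst bd_alg dom_sum dom0_sum keeps_pd keeps_zero keeps_sum bd_closure dom_pb_aff
  bd_fn bd_par Conn gron gron0 dom_of_sys dom_sub_ev0
open Vale.Agent.P354MG Vale.Agent.P354XD Vale.Agent.P354XR Vale.Agent.P354RI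

variable {J : Type} {m : Dm J} [Gr m.sF] {o : m.Ok} {M a : ℝ} {G : GHP m.S} {μ ν : ℕ → m.Q → ℝ}
  {ze zi : m.S} {k : ℝ}

theorem ab (h : In m o M a G μ ν) {d : (h.N SA).Q →+* (h.N SA).Q} (hd : ∀ f, d f = star f) :
    Ab cj m.h.H m.h.B (h.ρ le_rfl) d (h.N SA).Sq where
  rr := h.rr le_rfl
  st l := hd _ ▸ l.star
  fn l l' := l.fn l' rfl
  cc := cj_cj
  ca := cj_alg
  cH f := ((o.K0 M a).c_B f).symm
  cB f := ((o.K0 M a).c_H f).symm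
  dS := fun _ ⟨f, hf, l⟩ => ⟨_, (h.N SA).cS f hf, hd _ ▸ l.star⟩
  inv := Tri.sq_inv h.wt.inv
  rt n hn l e w := by
    have r := h.rr (S := SA) le_rfl
    obtain ⟨u, v, l1, l2, e1, e2, c⟩ := h.rt (h.on_of (l.cs r.one e) w.H0 w.B0) n hn
    obtain ⟨p, lp⟩ := In.ex_ρ (l1.cs h).mem
    obtain ⟨q, lq⟩ := In.ex_ρ (l2.cs h).mem
    exact ⟨u, v, p, q, lp, lq, lp.sq r.one (l1.cs h), lq.sq r.one (l2.cs h), e1, e2,
      w0 l1.H l1.B, w0 l2.H l2.B, c⟩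

theorem nat : NAT := by
  intro J m _ o M a G μ ν h ze zi k z K' i c
  have b := ab h i.c
  have r := b.rr
  have nk := (h.nh z le_rfl).nk
  have iq := nk.kd.is Tri.sj Tri.Rp.fn nk.ki
  have cl := kr_cg i.is iq (fun f => (i.c f).symm) b.dS c
  have q0 := h.kq0 z le_rfl
  have gn := h.gnh z le_rfl
  have i0 := o.K0 M a
  have gi := h.is
  have wt : ∀ {p q : ℤ} {f}, G.H f = p * f → G.Hb f = q * f → W m.h.H m.h.B p q f :=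
    fun e e' => ⟨h.H ▸ e, h.B ▸ e'⟩
  have dz : ∀ D : Der m.S, D G.P2 = 0 → D ze = 0 ∧ D zi = 0 := fun D e => by
    have e1 : D ze = 0 := by simpa using d_ze D (k := 0) z.e (by rw [z.e3, e]; ring)
    exact ⟨e1, by rw [KC.D_inv D (v := zi) (u := ze) (by rw [mul_comm, z.e]), e1]; ring⟩
  obtain ⟨a1, a2⟩ := dz _ (h.H ▸ gi.H_P2)
  obtain ⟨b1, b2⟩ := dz _ (h.B ▸ gi.Hb_P2)
  obtain ⟨-, -, -, -, -, -, -, -, -, -, -, -, -, -, tH, tB⟩ := o.is.tab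
  obtain ⟨p2, l2⟩ := In.ex_ρ gn.hb.z2
  obtain ⟨p5, l5⟩ := In.ex_ρ gn.hb.z5
  have hN := o.is.hN
  have k0 : k ≠ 0 := by
    rintro rfl
    linarith [h.M0, z.k3]
  have lzi : h.ρ le_rfl zi (h.T z le_rfl).zi := nk.rzi
  have D : Dt cj m.h.H m.h.B (h.ρ le_rfl) (h.N SA).Sq K' nk.Kq G.rh G.rh' G.ta G.ta' ze zi
      (m.K0 M a).sg (m.h.z 2) (m.h.z 5) (h.T z le_rfl).ze (h.T z le_rfl).zi p2 p5 k a := by
    refine ⟨b, i.is, iq, cl, wt (by simp [gi.H_rh]) (by simp [gi.Hb_rh]),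
      wt (by simp [gi.H_rh']) (by simp [gi.Hb_rh']), wt (by simp [gi.H_ta]) (by simp [gi.Hb_ta]),
      wt (by simp [gi.H_ta']) (by simp [gi.Hb_ta']), w0 a1 b1, w0 a2 b2, w0 i0.H_sg i0.B_sg,
      ⟨by simp [tH], by simp [tB]⟩, ⟨by simp [tH], by simp [tB]⟩, i.rh ▸ nk.rr, i.rh2 ▸ nk.rr2,
      i.ta ▸ nk.rt, i.ta2 ▸ nk.rt2, nk.rze, lzi, q0.sg, l2, l5, (h.T z le_rfl).zezi, i.P2,
      lzi.sq (r.mul (r.alg _) q0.z) gn.nk.cz, k0, h.a0, q0.a.fn (r.alg _) rfl, ?_, ?_, ?_⟩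
    · refine b.eq (r.add (r.mul (r.add r.one q0.x) l2) (r.mul q0.s l5)) (r.mul r.two l2) ?_
      simp only [Dm.K0, kk, Hp.kc, Hp.N] at hN ⊢
      linear_combination m.h.z 2 * hN
    · refine b.eq (r.add (r.mul q0.sb l2) (r.mul (r.sub r.one q0.x) l5)) (r.mul r.two l5) ?_
      simp only [Dm.K0, kk, Hp.kc, Hp.N] at hN ⊢
      linear_combination m.h.z 5 * hN
    · refine b.eq (r.mul (r.add (r.mul l2 (b.st l2)) (r.mul (b.st l5) l5)) q0.Ni) r.one ?_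
      rw [show cj (m.h.z 2) = _ from o.is.z2, show cj (m.h.z 5) = _ from o.is.z5]
      exact hN
  obtain ⟨r, e1, e2, Ni, sg, ah, Mh, E1, E2, cr, ca, cM, Hr, Ha, HM, w1, w2, hN, hg, kq, m1, m2,
    g1, g2⟩ := D.main
  exact ⟨r, e1, e2, Ni, sg, ah, Mh, cr, ca, cM, Hr, Ha, HM, w1.H1, w1.B0, w2.H0, w2.B1, hN, hg, kq,
    ⟨Tri.rr_cs, kq.r.cs q0.r cl.r, kq.x.cs q0.x cl.x, kq.s.cs q0.s cl.s, kq.sb.cs q0.sb cl.sb,
      kq.N.cs q0.N cl.N, kq.Ni.cs q0.Ni cl.Ni, kq.sg.cs q0.sg cl.sg, kq.a.cs q0.a cl.a,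
      kq.M.cs q0.M cl.M⟩, m1.cs l2 g1, m2.cs l5 g2⟩

end Vale.Agent.P354NA
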