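import Vale.Agent.P354NA.Lin

/-!
The early zone of the near chart.
-/

set_option maxSynthPendingDepth 3

open scoped ContDiff
open Set Filter Topology

noncomputable section

namespace Vale.Agent.P354NA

open Vale.Agent.P354n (R4)
open Vale.Agent.P354XE (Tw gin rd eT Bd pb)
open Vale.Agent.P354XA (rd_cd)
open Vale.Agent.P354YI Vale.Agent.P354YO Vale.Agent.P354MG

variable {M a M' a' R r1 : ℝ} {A B A' B' : ℝ → ℝ} {q : R4}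

theorem a0_cd (h : ContDiff ℝ ∞ A) (M : ℝ) {r : ℝ} (hr : 0 < r) :
    ContDiffAt ℝ ∞ (fun r => A r - 4 * M ^ 2 / r) r :=
  h.contDiffAt.sub (contDiffAt_const.div contDiffAt_id hr.ne')

theorem st_cd (h : ContDiff ℝ ∞ A ∧ ContDiff ℝ ∞ B) (M : ℝ) (y : R4) (hy : 0 < rd y) :
    ContDiffAt ℝ ∞ (st4 M A B) y := sh_cd hy.ne' (a0_cd h.1 M hy) h.2.contDiffAt

theorem ts_cd (h : ContDiff ℝ ∞ A ∧ ContDiff ℝ ∞ B) (M : ℝ) (y : R4) (hy : 0 < rd y) :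
    ContDiffAt ℝ ∞ (ts4 M A B) y := sh_cd hy.ne' (a0_cd h.1 M hy).neg h.2.contDiffAt.neg

theorem ts_st (M : ℝ) (A B : ℝ → ℝ) (y : R4) : ts4 M A B (st4 M A B y) = y := sh_inv _ _ y
theorem st_ts (M : ℝ) (A B : ℝ → ℝ) (y : R4) : st4 M A B (ts4 M A B y) = y := sh_inv' _ _ y
theorem rd_st4 (M : ℝ) (A B : ℝ → ℝ) (y : R4) : rd (st4 M A B y) = rd y := rd_sh _ _ y

theorem st_st (M : ℝ) (A B A' B' : ℝ → ℝ) (y : R4) :
    sh (A' - A) (B' - B) (st4 M A B y) = st4 M A' B' y := by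
  rw [st4, sh_sh, st4]
  congr 1 <;> funext r <;> simp

/-- The map ψ in the ingoing charts. -/
def cjg (M : ℝ) (A B A' B' : ℝ → ℝ) (ψ : R4 → R4) (y : R4) : R4 :=
  sh (A' - A) (B' - B) (st4 M A B (ψ (ts4 M A B y)))

section family
variable {J : Type} {x : J → R4} {μ : J → ℝ} {n : ℕ} {ρ : ℝ} {ψ : J → R4 → R4}

theorem oj_st4 (c : ContDiff ℝ ∞ A ∧ ContDiff ℝ ∞ B) (M : ℝ) (h1 : 0 < r1)
    (hx : ∀ j, r1 ≤ rd (x j) ∧ rd (x j) ≤ ρ) (o : Oj (n + 1) x (fun j y => ψ j y - y) μ)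
    (v : ∀ j, ‖ψ j (x j) - x j‖ ≤ μ j) (l1 : ∀ j, μ j ≤ 1) (l2 : ∀ j, 4 * μ j ≤ r1) :
    Oj (n + 1) x (fun j y => st4 M A B (ψ j y) - st4 M A B y) μ :=
  ((oj_lst h1 hx (st_cd c M) o v l1 l2).add
    (o.clm ((ContinuousLinearMap.fst ℝ ℝ _).smulRight eT))).congr' fun j y => by
      rw [st4, sh_pr _ _ (ψ j y), sh_pr _ _ y]
      simp only [ContinuousLinearMap.smulRight_apply, ContinuousLinearMap.coe_fst', Prod.fst_sub,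
        sub_smul]
      abel

theorem oj_conj (c : ContDiff ℝ ∞ A ∧ ContDiff ℝ ∞ B) (M : ℝ) (h1 : 0 < r1)
    (hx : ∀ j, r1 ≤ rd (x j) ∧ rd (x j) ≤ ρ)
    (o : Oj n x (fun j y => st4 M A B (ψ j y) - st4 M A B y) μ) :
    Oj n (fun j => st4 M A B (x j)) (fun j y => st4 M A B (ψ j (ts4 M A B y)) - y) μ := by
  have hp : ∀ j, r1 ≤ rd (st4 M A B (x j)) ∧ rd (st4 M A B (x j)) ≤ ρ := fun j => by
    rw [rd_st4]; exact hx j
  have e : (fun j => ts4 M A B (st4 M A B (x j))) = x := funext fun j => ts_st M A B _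
  have d : Oj (n - 1) (fun j => st4 M A B (x j)) (fun _ => fderiv ℝ (ts4 M A B)) 1 :=
    oj_dsh h1 hp (ts_cd c M)
  have := Oj.comp (x := fun j => st4 M A B (x j)) (f := fun _ => ts4 M A B)
    (fun j => ts_cd c M _ (h1.trans_le (hp j).1)) n
    (G := fun j y => st4 M A B (ψ j y) - st4 M A B y) d (by rwa [e])
  exact this.congr' fun j y => by rw [st_ts]

theorem oj_post {F G : J → ℝ → ℝ} (h1 : 0 < r1) (o : Oj (n + 1) x (fun j y => ψ j y - y) μ)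
    (l1 : ∀ j, μ j ≤ 1) (hz : ∀ j, r1 ≤ rd (ψ j (x j)) ∧ rd (ψ j (x j)) ≤ ρ)
    (hF : Oj (n + 1) (fun j => rd (ψ j (x j))) F μ) (hG : Oj (n + 1) (fun j => rd (ψ j (x j))) G μ) :
    Oj (n + 1) x (fun j y => sh (F j) (G j) (ψ j y) - y) μ :=
  ((Oj.comp (oj_fd o).1 (n + 1) (G := fun j y => sh (F j) (G j) y - y) (oj_fd1 o l1)
    (oj_sh h1 hz hF hG l1)).add o).congr' fun _ _ => (sub_add_sub_cancel _ _ _).symm

end family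

theorem cjg_near (h0 : 0 < M) (t : IsTh M M a A B) (h1 : 0 < r1) (hR : r1 ≤ R) (ρ : ℝ) (n : ℕ) :
    ∃ C, 0 ≤ C ∧ ∀ (ψ : R4 → R4) q ν M' a' A' B', ContDiffAt ℝ ∞ ψ q →
      Jb (n + 1) (fun y => ψ y - y) q ν → ν ≤ 1 → 4 * ν ≤ r1 → r1 ≤ rd q → rd q ≤ ρ →
      Nth M R M' a' A B A' B' → |M' - M| + |a' - a| ≤ ν →
      ContDiffAt ℝ ∞ (cjg M A B A' B' ψ) (st4 M A B q) ∧
        Jb (n + 1) (fun y => cjg M A B A' B' ψ y - y) (st4 M A B q) (C * ν) := by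
  let J := {j : ((R4 → R4) × R4 × ℝ) × (ℝ × ℝ) × (ℝ → ℝ) × (ℝ → ℝ) //
    ContDiffAt ℝ ∞ j.1.1 j.1.2.1 ∧ Jb (n + 1) (fun y => j.1.1 y - y) j.1.2.1 j.1.2.2 ∧
    j.1.2.2 ≤ 1 ∧ 4 * j.1.2.2 ≤ r1 ∧ (r1 ≤ rd j.1.2.1 ∧ rd j.1.2.1 ≤ ρ) ∧
    Nth M R j.2.1.1 j.2.1.2 A B j.2.2.1 j.2.2.2 ∧ |j.2.1.1 - M| + |j.2.1.2 - a| ≤ j.1.2.2}
  have c := th_cd h0 t
  have l1 : ∀ j : J, j.1.1.2.2 ≤ 1 := fun j => j.2.2.2.1
  have hx : ∀ j : J, r1 ≤ rd j.1.1.2.1 ∧ rd j.1.1.2.1 ≤ ρ := fun j => j.2.2.2.2.2.1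
  have o : Oj (n + 1) (fun j : J => j.1.1.2.1) (fun j y => j.1.1.1 y - y) fun j => j.1.1.2.2 :=
    .of (fun j => j.2.1.sub contDiffAt_id) fun j => j.2.2.1
  have v : ∀ j : J, ‖j.1.1.1 j.1.1.2.1 - j.1.1.2.1‖ ≤ j.1.1.2.2 := fun j => j.2.2.1.zero
  have o2 := oj_conj c M h1 hx (oj_st4 c M h1 hx o v l1 fun j => j.2.2.2.2.1)
  obtain ⟨C, c0, hC⟩ := lin_th (R := R) h0 t (r0 := r1 / 2) (ρ := max ρ R + 2)
    ⟨by linarith, by linarith [le_max_right ρ R]⟩ (n + 1)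
  have hz : ∀ j : J, r1 / 2 ≤ rd (st4 M A B (j.1.1.1 (ts4 M A B (st4 M A B j.1.1.2.1)))) ∧
      rd (st4 M A B (j.1.1.1 (ts4 M A B (st4 M A B j.1.1.2.1)))) ≤ max ρ R + 2 := fun j => by
    rw [rd_st4, ts_st]
    exact ball_rd (v j) (l1 j) j.2.2.2.2.1 ⟨(hx j).1, le_max_of_le_left (hx j).2⟩
  have k := fun j : J => hC _ _ _ _ _ j.2.2.2.2.2.2.1 j.2.2.2.2.2.2.2 (l1 j) _ (hz j)
  have c' := fun j : J => th_cd h0 j.2.2.2.2.2.2.1.th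
  have o4 := oj_post (ψ := fun (j : J) y => st4 M A B (j.1.1.1 (ts4 M A B y))) (half_pos h1) o2 l1 hz
    (F := fun j => j.1.2.2.1 - A) (G := fun j => j.1.2.2.2 - B)
    ⟨fun j => ((c' j).1.sub c.1).contDiffAt, o.nn, C, c0, fun j => (k j).1⟩
    ⟨fun j => ((c' j).2.sub c.2).contDiffAt, o.nn, C, c0, fun j => (k j).2⟩
  obtain ⟨D, d0, hD⟩ := o4.bd
  have s := (oj_fd o4).1
  exact ⟨D, d0, fun ψ q ν M' a' A' B' a1 a2 a3 a4 a5 a6 a7 a8 =>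
    ⟨s ⟨((ψ, q, ν), (M', a'), A', B'), a1, a2, a3, a4, ⟨a5, a6⟩, a7, a8⟩,
      hD ⟨((ψ, q, ν), (M', a'), A', B'), a1, a2, a3, a4, ⟨a5, a6⟩, a7, a8⟩⟩⟩

theorem pull_st (c : ContDiff ℝ ∞ A ∧ ContDiff ℝ ∞ B) (M : ℝ) (h1 : 0 < r1) (ρ : ℝ) (n : ℕ) :
    ∃ C, 0 ≤ C ∧ ∀ (h : Tw) q w, r1 ≤ rd q → rd q ≤ ρ → Sb h (st4 M A B q) →
      Bd n h (st4 M A B q) w → Bd n (pb (st4 M A B) h) q (C * w) := by
  let J := {j : Tw × R4 × ℝ // (r1 ≤ rd j.2.1 ∧ rd j.2.1 ≤ ρ) ∧ Sb j.1 (st4 M A B j.2.1) ∧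
    Bd n j.1 (st4 M A B j.2.1) j.2.2}
  have s := fun j : J => st_cd c M _ (h1.trans_le j.2.1.1)
  obtain ⟨C, c0, hC⟩ := bd_of_oj (fun j : J => j.2.2.1.pull (s j)) (oj_pb s
    (oj_dsh h1 (fun j => j.2.1) (st_cd c M)) (fun j => j.2.2.1)
    (oj_of_bd (fun j => j.2.2.1) fun j => j.2.2.2))
  exact ⟨C, c0, fun h q w a1 a2 a3 a4 => hC ⟨(h, q, w), ⟨a1, a2⟩, a3, a4⟩⟩

/-- The metric in a chart which is close to the straight chart. -/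
theorem near_ks (h0 : 0 < M) (t : IsTh M M a A B) (h1 : 0 < r1) (hR : r1 ≤ R) (ρ : ℝ) (n : ℕ) :
    ∃ C, 0 ≤ C ∧ ∃ e > 0, ∀ (ψ : R4 → R4) q ν (g : Tw) M' a' A' B', ContDiffAt ℝ ∞ ψ q →
      Jb (n + 1) (fun y => ψ y - y) q ν → ν ≤ e → r1 ≤ rd q → rd q ≤ ρ →
      Nth M R M' a' A B A' B' → |M' - M| + |a' - a| ≤ ν → Sb g (st4 M A B q) →
      Bd n (g - gin M a) (st4 M A B q) ν →
      Bd n (pb (st4 M A B) g - pb ψ (kS M M' a' A' B')) q (C * ν) := by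
  have c := th_cd h0 t
  obtain ⟨C1, c1, k1⟩ := cjg_near h0 t h1 hR ρ n
  obtain ⟨C2, c2, k2⟩ := pull_gin M a h1 ρ n
  obtain ⟨C3, c3, k3⟩ := pull_st c M h1 ρ n
  refine ⟨C3 * (1 + C2 * (C1 + 1)), by positivity, min 1 (r1 / 4) / (C1 + 1), by positivity,
    fun ψ q ν g M' a' A' B' s j l a1 a2 th p sg bd => ?_⟩
  have n0 := j.nonneg
  rw [le_div_iff₀' (by positivity), le_min_iff] at l
  have n1 : ν ≤ (C1 + 1) * ν := by nlinarith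
  obtain ⟨s1, j1⟩ := k1 ψ q ν M' a' A' B' s j (by linarith [l.1]) (by linarith [l.2]) a1 a2 th p
  have b1 := k2 _ M' a' _ ((C1 + 1) * ν) s1 (j1.mono le_rfl (by nlinarith)) l.1 (by linarith [l.2])
    (by linarith [abs_nonneg (a' - a)]) (by linarith [abs_nonneg (M' - M)]) (by rwa [rd_st4])
    (by rwa [rd_st4])
  have q0 : 0 < rd q := h1.trans_le a1
  have q1 : 0 < rd (ψ q) := (half_pos h1).trans_le
    (ball_rd j.zero (by linarith [l.1]) (by linarith [l.2]) ⟨a1, a2⟩).1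
  have e : cjg M A B A' B' ψ ∘ st4 M A B = st4 M A' B' ∘ ψ := funext fun y => by
    simp only [Function.comp_apply, cjg, ts_st, st_st]
  have sb : Sb (pb (cjg M A B A' B' ψ) (gin M' a')) (st4 M A B q) := (sb_gin (by
    rwa [show cjg M A B A' B' ψ (st4 M A B q) = _ from congrFun e q, Function.comp_apply,
      rd_st4])).pull s1
  have b2 := k3 _ q _ a1 a2 (sg.sub sb)
    (bd_tri sg (sb_gin (by rwa [rd_st4])) sb bd (bd_symm b1))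
  rw [pb_sub] at b2
  refine bd_mono (bd_congr ?_ b2) le_rfl (le_of_eq (by ring))
  have e1 := pb_comp (g := gin M' a') (st_cd c M q q0) s1
  have e2 := pb_comp (g := gin M' a') s (st_cd (th_cd h0 th.th) M _ q1)
  rw [e] at e1
  exact (e1.symm.trans e2).mono fun y hy => congrArg (pb (st4 M A B) g y - ·) hy

theorem er_cd (y : R4) (hy : 0 < rd y) : ContDiffAt ℝ ∞ er4 y :=
  contDiffAt_const.prodMk (((rd_cd hy.ne').inv hy.ne').smul contDiffAt_snd)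

theorem phb_near (h1 : 0 < r1) (ρ : ℝ) (n : ℕ) : ∃ C, 0 ≤ C ∧ ∀ (φ : R4 → R4) ti q ν, ν ≤ 1 →
    4 * ν ≤ r1 → r1 ≤ rd q → rd q ≤ ρ → Nid n φ q ν → |(φ q - q).1| ≤ ν →
    Jb n (fun x => fderiv ℝ (phB ti φ) x - ContinuousLinearMap.id ℝ R4) q (C * ν) ∧
      Jb (n + 1) (fun x => phB ti φ x - x) q (C * ν) ∧ Jb n (dfc (phB ti φ) 1) q (C * ν) := by
  let J := {j : (R4 → R4) × ℝ × R4 × ℝ // j.2.2.2 ≤ 1 ∧ 4 * j.2.2.2 ≤ r1 ∧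
    (r1 ≤ rd j.2.2.1 ∧ rd j.2.2.1 ≤ ρ) ∧ Nid n j.1 j.2.2.1 j.2.2.2 ∧
    |(j.1 j.2.2.1 - j.2.2.1).1| ≤ j.2.2.2}
  let x : J → R4 := fun j => j.1.2.2.1
  let μ : J → ℝ := fun j => j.1.2.2.2
  have hx : ∀ j, r1 ≤ rd (x j) ∧ rd (x j) ≤ ρ := fun j => j.2.2.2.1
  have s : ∀ j : J, ContDiffAt ℝ ∞ j.1.1 (x j) := fun j => j.2.2.2.2.1.sm
  have v : ∀ j : J, ‖j.1.1 (x j) - x j‖ ≤ μ j := fun j => max_le j.2.2.2.2.2 j.2.2.2.2.1.x
  have o : Oj (n + 1) x (fun j y => j.1.1 y - y) μ :=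
    .of (fun j => (s j).sub contDiffAt_id) fun j => .succ (v j) (j.2.2.2.2.1.d.congr
      ((ev_dif (s j)).mono fun y hy => by
        simp only [fderiv_fun_sub hy differentiableAt_fun_id, fderiv_fun_id]))
  have o1 : Oj (n + 1) x (fun j y => phB j.1.2.1 j.1.1 y - y) μ :=
    ((oj_cut fun j : J => j.1.2.1).smulr o).congr' fun j y => add_sub_cancel_left _ _
  have v1 : ∀ j : J, ‖phB j.1.2.1 j.1.1 (x j) - x j‖ ≤ μ j := fun j => by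
    rw [phB, add_sub_cancel_left, norm_smul, Real.norm_of_nonneg (Real.smoothTransition.nonneg _)]
    exact (mul_le_of_le_one_left (norm_nonneg _) (Real.smoothTransition.le_one _)).trans (v j)
  have o2 := (oj_fd o1).2
  have o3 : Oj n x (fun j => dfc (phB j.1.2.1 j.1.1) 1) μ :=
    ((o2.apl (oj_st h1 hx er_cd)).sub
      (oj_lst h1 hx er_cd o1 v1 (fun j => j.2.1) fun j => j.2.2.1).pred).congr' fun j y => by
        simp only [dfc, one_smul, sub_apply, ContinuousLinearMap.id_apply]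
        exact (sub_sub_sub_cancel_right _ _ (er4 y)).symm
  obtain ⟨C1, c1, k1⟩ := o1.bd
  obtain ⟨C2, c2, k2⟩ := o2.bd
  obtain ⟨C3, c3, k3⟩ := o3.bd
  refine ⟨C1 + C2 + C3, by positivity, fun φ ti q ν a1 a2 a3 a4 a5 a6 => ?_⟩
  let j : J := ⟨(φ, ti, q, ν), a1, a2, ⟨a3, a4⟩, a5, a6⟩
  have n0 : 0 ≤ ν := a5.d.nonneg
  exact ⟨(k2 j).mono le_rfl (mul_le_mul_of_nonneg_right (by linarith) n0),
    (k1 j).mono le_rfl (mul_le_mul_of_nonneg_right (by linarith) n0),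
    (k3 j).mono le_rfl (mul_le_mul_of_nonneg_right (by linarith) n0)⟩

theorem phb : PHB := fun M a r1 R ρ A B n aM h1 hR t => by
  have h0 := (abs_nonneg a).trans_lt aM
  obtain ⟨C1, c1, k1⟩ := phb_near h1 ρ n
  obtain ⟨C2, c2, e, e0, k2⟩ := near_ks h0 t h1 hR ρ n
  refine ⟨(C2 + 1) * (C1 + 1), min (min 1 (r1 / 4)) (e / (C1 + 1)), by positivity,
    fun φ ti q ν l a1 a2 d v => ?_⟩
  rw [le_min_iff, le_min_iff, le_div_iff₀' (show 0 < C1 + 1 by positivity)] at l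
  have n0 : 0 ≤ ν := d.d.nonneg
  obtain ⟨j1, j2, j3⟩ := k1 φ ti q ν l.1.1 (by linarith [l.1.2]) a1 a2 d v
  have m1 : C1 * ν ≤ (C1 + 1) * ν := by nlinarith
  have m2 : ν ≤ (C1 + 1) * ν := by nlinarith
  have m3 : (C1 + 1) * ν ≤ (C2 + 1) * (C1 + 1) * ν := by nlinarith [mul_nonneg c2 (n0.trans m2)]
  have ev : ∀ᶠ x in 𝓝 q, ContDiffAt ℝ ∞ (phB ti φ) x := d.ev.mono fun x hx =>
    contDiffAt_id.add (((Real.smoothTransition.contDiff (n := ⊤)).contDiffAt.comp x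
      (contDiffAt_fst.sub contDiffAt_const)).smul (hx.sub contDiffAt_id))
  refine ⟨⟨ev, j1.mono le_rfl (m1.trans m3), ((norm_snd_le _).trans j2.zero).trans (m1.trans m3)⟩,
    j2.mono le_rfl (m1.trans m3), j3.mono le_rfl (m1.trans m3),
    fun g M' a' A' B' th p sg bd => bd_mono (k2 _ q _ g M' a' A' B' ev.self_of_nhds
      (j2.mono le_rfl m1) l.2 a1 a2 th (p.trans m2) sg (bd_mono bd le_rfl m2)) le_rfl ?_⟩
  nlinarith [n0.trans m2]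

end Vale.Agent.P354NA
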