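import Vale.Agent.P354NA.Fn

/-!
The spinor which belongs to the projector of a Kerr chart.
-/

noncomputable section

namespace Vale.Agent.P354NA

open Vale.Agent.P354XG Vale.Agent.P354XG.Geo Vale.Agent.P354XR Vale.Agent.P354RI

variable {A Q : Type} [CommRing A] [Algebra ℂ A] [CommRing Q] [Algebra ℂ Q]

theorem k1_N (c : A →+* A) (r e1 e2 Ni sg a M : A) :
    (k1 c r e1 e2 Ni sg a M).N = e1 * c e1 + c e2 * e2 := rfl
theorem k1_x (c : A →+* A) (r e1 e2 Ni sg a M : A) :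
    (k1 c r e1 e2 Ni sg a M).x = (e1 * c e1 - c e2 * e2) * Ni := rfl
theorem k1_s (c : A →+* A) (r e1 e2 Ni sg a M : A) :
    (k1 c r e1 e2 Ni sg a M).s = 2 * e1 * c e2 * Ni := rfl
theorem k1_sb (c : A →+* A) (r e1 e2 Ni sg a M : A) :
    (k1 c r e1 e2 Ni sg a M).sb = 2 * c e1 * e2 * Ni := rfl

namespace Dt
variable {c : A →+* A} {H B : Der A} {ρ : A → Q → Prop} {S : Ideal Q} {K' K : KC Q}
  {rh rh' ta ta' ze zi sg z2 z5 : A} {Z Zi p2 p5 : Q} {k a : ℝ}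
  (h : Dt c H B ρ S K' K rh rh' ta ta' ze zi sg z2 z5 Z Zi p2 p5 k a)
include h

theorem ex_sp {x s Ni : A} (cN : c Ni = Ni) (wx : W H B 0 0 x) (ws : W H B 1 (-1) s)
    (wN : W H B (-1) (-1) Ni) (lx : ρ x K'.x) (ls : ρ s K'.s) (lN : ρ Ni K'.Ni) :
    ∃ e1 e2 E1 E2, W H B 1 0 e1 ∧ W H B 0 1 e2 ∧ (e1 * c e1 + c e2 * e2) * Ni = 1 ∧ ρ e1 E1 ∧
      ρ e2 E2 ∧ Cg S E1 p2 ∧ Cg S E2 p5 ∧ ρ (e1 * c e1 + c e2 * e2) K'.N ∧
      ρ ((e1 * c e1 - c e2 * e2) * Ni) K'.x ∧ ρ (2 * e1 * c e2 * Ni) K'.s ∧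
      ρ (2 * c e1 * e2 * Ni) K'.sb := by
  have b := h.ab
  have r := b.rr
  have g := rr_cg (S := S)
  have i := h.i'
  have t := two_hf (A := Q)
  have hs := i.hs
  have lb := b.st ls
  rw [i.c_s] at lb
  have l1 := r.mul r.hf (r.add (r.mul (r.add r.one lx) h.lz2) (r.mul ls h.lz5))
  have l2 := r.mul r.hf (r.add (r.mul lb h.lz2) (r.mul (r.sub r.one lx) h.lz5))
  have w1 := (w_alg (1 / 2)).m0 (((w_one.add wx).m0 h.wz2).add (ws.mul h.wz5 rfl rfl))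
  have w2 := (w_alg (1 / 2)).m0 (((b.cj ws).mul h.wz2 rfl rfl).add ((w_one.sub wx).m0 h.wz5))
  have g1 : Cg S (hf Q * ((1 + K'.x) * p2 + K'.s * p5)) p2 :=
    (g.mul g.hf (g.add (g.mul (g.add g.one h.cl.x) (.rfl' p2)) (g.mul h.cl.s (.rfl' p5)))).to
      (by rw [h.i1]; linear_combination p2 * t)
  have g2 : Cg S (hf Q * (K'.sb * p2 + (1 - K'.x) * p5)) p5 :=
    (g.mul g.hf (g.add (g.mul h.cl.sb (.rfl' p2)) (g.mul (g.sub g.one h.cl.x) (.rfl' p5)))).to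
      (by rw [h.i2]; linear_combination p5 * t)
  have d1 : K'.c (hf Q * ((1 + K'.x) * p2 + K'.s * p5)) =
      hf Q * ((1 + K'.x) * K'.c p2 + K'.sb * K'.c p5) := by
    simp only [map_mul, map_add, map_one, c_hf i, i.c_x, i.c_s]
  have d2 : K'.c (hf Q * (K'.sb * p2 + (1 - K'.x) * p5)) =
      hf Q * (K'.s * K'.c p2 + (1 - K'.x) * K'.c p5) := by
    simp only [map_mul, map_add, map_sub, map_one, c_hf i, i.c_x, i.c_sb]
  change W H B 1 0 (hf A * _) at w1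
  change W H B 0 1 (hf A * _) at w2
  generalize hf A * ((1 + x) * z2 + s * z5) = v1 at l1 w1
  generalize hf A * (c s * z2 + (1 - x) * z5) = v2 at l2 w2
  generalize hV1 : hf Q * ((1 + K'.x) * p2 + K'.s * p5) = V1 at l1 g1 d1
  generalize hV2 : hf Q * (K'.sb * p2 + (1 - K'.x) * p5) = V2 at l2 g2 d2
  have n1 : V1 * K'.c V1 - K'.c V2 * V2 = K'.x * (V1 * K'.c V1 + K'.c V2 * V2) := by
    rw [d1, d2, ← hV1, ← hV2]
    linear_combination hf Q ^ 2 * ((1 - K'.x) * p5 * K'.c p5 - (1 + K'.x) * p2 * K'.c p2) * hs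
  have n2 : 2 * V1 * K'.c V2 = K'.s * (V1 * K'.c V1 + K'.c V2 * V2) := by
    rw [d1, d2, ← hV1, ← hV2]
    linear_combination -hf Q ^ 2 * (K'.s * (p2 * K'.c p2 + p5 * K'.c p5) + 2 * p2 * K'.c p5) * hs
  have n3 : 2 * K'.c V1 * V2 = K'.sb * (V1 * K'.c V1 + K'.c V2 * V2) := by
    rw [d1, d2, ← hV1, ← hV2]
    linear_combination -hf Q ^ 2 * (K'.sb * (p2 * K'.c p2 + p5 * K'.c p5) + 2 * K'.c p2 * p5) * hs
  obtain ⟨w, v, p, q, -, lv, -, gq, ww, wv, -, vv, cr⟩ := b.rt 2 two_ne_zero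
    (r.mul (r.add (r.mul l1 (b.st l1)) (r.mul (b.st l2) l2)) lN)
    ((g.mul (g.add (g.mul g1 (b.cg g1)) (g.mul (b.cg g2) g2)) h.cl.Ni).to h.i3)
    (((w1.mul (b.cj w1) rfl rfl).add ((b.cj w2).mul w2 rfl rfl)).mul wN rfl rfl)
  obtain ⟨-, cv⟩ := cr (by simp only [map_mul, map_add, b.cc, cN]; ring)
  have cq := b.real lv cv
  have e1 := r.mul lv l1
  have e2 := r.mul lv l2
  have f1 := b.st e1
  have f2 := b.st e2
  have hN : (v * v1 * c (v * v1) + c (v * v2) * (v * v2)) * Ni = 1 := by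
    simp only [map_mul, cv]
    linear_combination -(v * v) * ww + (w * v + 1) * wv
  have lN' := r.add (r.mul e1 f1) (r.mul f2 e2)
  have eN := b.eq (r.mul lN' lN) r.one hN
  have eN' := eN
  simp only [map_mul, cq] at eN'
  refine ⟨_, _, _, _, vv.m0 w1, vv.m0 w2, hN, e1, e2, (g.mul gq g1).to (one_mul _),
    (g.mul gq g2).to (one_mul _), ?_, ?_, ?_, ?_⟩
  · have hN' := i.hN
    rw [mul_comm] at eN hN'
    exact inv_eq eN hN' ▸ lN'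
  · have := r.mul (r.sub (r.mul e1 f1) (r.mul f2 e2)) lN
    rwa [show (q * V1 * K'.c (q * V1) - K'.c (q * V2) * (q * V2)) * K'.Ni = K'.x by
      simp only [map_mul, cq]
      linear_combination q * q * K'.Ni * n1 + K'.x * eN'] at this
  · have := r.mul (r.mul (r.mul r.two e1) f2) lN
    rwa [show 2 * (q * V1) * K'.c (q * V2) * K'.Ni = K'.s by
      simp only [map_mul, cq]
      linear_combination q * q * K'.Ni * n2 + K'.s * eN'] at this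
  · have := r.mul (r.mul (r.mul r.two f1) e2) lN
    rwa [show 2 * K'.c (q * V1) * (q * V2) * K'.Ni = K'.sb by
      simp only [map_mul, cq]
      linear_combination q * q * K'.Ni * n3 + K'.sb * eN'] at this

theorem main : ∃ r e1 e2 Ni sg ah Mh E1 E2, c r = r ∧ c ah = ah ∧ c Mh = Mh ∧ H r = 0 ∧
    H ah = 0 ∧ H Mh = 0 ∧ W H B 1 0 e1 ∧ W H B 0 1 e2 ∧ (k1 c r e1 e2 Ni sg ah Mh).N * Ni = 1 ∧
    sg * (r * r + ah * ah * (k1 c r e1 e2 Ni sg ah Mh).x * (k1 c r e1 e2 Ni sg ah Mh).x) = 1 ∧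
    KR ρ (k1 c r e1 e2 Ni sg ah Mh) K' ∧ ρ e1 E1 ∧ ρ e2 E2 ∧ Cg S E1 p2 ∧ Cg S E2 p5 := by
  obtain ⟨r, ah, Mh, x, s, Ni, cr, ca, cM, cN, wr, wa, wM, wx, ws, wN, lr, la, lM, lx, ls, lN⟩ :=
    h.ex_fn
  obtain ⟨e1, e2, E1, E2, w1, w2, hN, l1, l2, g1, g2, mN, mx, ms, mb⟩ :=
    h.ex_sp cN wx ws wN lx ls lN
  have b := h.ab
  have t := b.rr
  have g := rr_cg (S := S)
  have wX : W H B 0 0 ((e1 * c e1 - c e2 * e2) * Ni) :=
    ((w1.mul (b.cj w1) rfl rfl).sub ((b.cj w2).mul w2 rfl rfl)).mul wN rfl rfl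
  have lS := t.add (t.mul lr lr) (t.mul (t.mul (t.mul la la) mx) mx)
  obtain ⟨w, v, p, q, -, lv, -, -, ww, wv, -⟩ := b.rt 1 one_ne_zero (t.mul h.lsg lS)
    ((g.mul (.rfl' _) (g.add (g.mul h.cl.r h.cl.r)
      (g.mul (g.mul (g.mul h.cl.a h.cl.a) h.cl.x) h.cl.x))).to h.i.hg)
    (h.wsg.m0 ((wr.m0 wr).add (((wa.m0 wa).m0 wX).m0 wX)))
  have hg : sg * v * (r * r + ah * ah * ((e1 * c e1 - c e2 * e2) * Ni) *
      ((e1 * c e1 - c e2 * e2) * Ni)) = 1 := by linear_combination wv - v * ww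
  have lg := t.mul h.lsg lv
  have eg := b.eq (t.mul lg lS) t.one hg
  have eg' := h.i'.hg
  rw [mul_comm] at eg eg'
  rw [inv_eq eg eg'] at lg
  exact ⟨r, e1, e2, Ni, sg * v, ah, Mh, E1, E2, cr, ca, cM, wr.H0, wa.H0, wM.H0, w1, w2, hN, hg,
    ⟨t, lr, mx, ms, mb, mN, lN, lg, la, lM⟩, l1, l2, g1, g2⟩

end Dt

end Vale.Agent.P354NA
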